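import Vale.Agent.Lib.P262C.Main

namespace Vale.Agent.Results.P262.SteinitzSqrtLog

/-- For every zero-sum family of `N` vectors in the Euclidean unit ball of dimension `d`, some
ordering has all partial sums of norm at most `2300 * √(d * (log₂ d + 1))`, uniformly in `N`.
That is, the Euclidean Steinitz constant satisfies `S_2(d) ≤ 2300 √(d (log₂ d + 1))`. -/
theorem result (d N : ℕ) (v : Fin N → EuclideanSpace ℝ (Fin d)) (hv : ∀ i, ‖v i‖ ≤ 1)
    (h0 : ∑ i, v i = 0) :
    ∃ π : Equiv.Perm (Fin N), ∀ (k : ℕ) (hk : k ≤ N),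
      ‖∑ i : Fin k, v (π (Fin.castLE hk i))‖ ≤
        2300 * Real.sqrt ((d : ℝ) * (Real.logb 2 d + 1)) :=
  Vale.Agent.Lib.P262C.steinitz_sqrtlog d N v hv h0

end Vale.Agent.Results.P262.SteinitzSqrtLog
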